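import Vale.Agent.P253Z.Spec
import Vale.Agent.P211Z.Univ
import Vale.Agent.P211Z.Deck
import Vale.Agent.P253.R2.H922.Etale

/-!
# P253Z, block COV: holomorphic Riemannian coverings
-/

open scoped Manifold ContDiff Bundle Topology
open Bundle IsManifold Set Metric Filter Vale.Agent.P253.Mfd

set_option maxSynthPendingDepth 3
set_option linter.unusedSectionVars false

noncomputable section

namespace Vale.Agent.P253Z.Cov

open Vale.Agent.P211Z

/-- a covering of a proper space which does not increase distances is complete -/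
theorem complete_of_cov {X Y : Type} [MetricSpace X] [MetricSpace Y] [ProperSpace X]
    {f : Y → X} (hf : IsCoveringMap f) (hl : ∀ y z, dist (f y) (f z) ≤ dist y z)
    (hb : ∀ (y : Y) (r : ℝ), IsPreconnected (ball y r)) : CompleteSpace Y := by
  refine Metric.complete_of_cauchySeq_tendsto fun u hu => ?_
  have hlip : LipschitzWith 1 f := LipschitzWith.mk_one hl
  obtain ⟨x, hx⟩ := cauchySeq_tendsto_of_complete (hlip.uniformContinuous.comp_cauchySeq hu)
  obtain ⟨hd, U, hxU, hU, -, H, hH⟩ := hf x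
  obtain ⟨δ, hδ, hL⟩ := Metric.isOpen_iff.1 hU x hxU
  obtain ⟨n₁, hn₁⟩ := Metric.cauchySeq_iff.mp hu (δ / 2) (by linarith)
  obtain ⟨n₂, hn₂⟩ := Metric.tendsto_atTop.1 hx (δ / 2) (by linarith)
  set y := u (max n₁ n₂) with hy
  have hxy : dist (f y) x < δ / 2 := hn₂ _ (le_max_right _ _)
  have key : ∃ K : Set Y, IsCompact K ∧ ball y (δ / 2) ⊆ K := by
    have hsub : ∀ z ∈ ball y (δ / 2), f z ∈ closedBall (f y) (δ / 2) := fun z hz =>
      (hl z y).trans (le_of_lt hz)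
    have hcb : closedBall (f y) (δ / 2) ⊆ U := fun w hw => hL (by
      rw [mem_ball]
      linarith [dist_triangle w (f y) x, mem_closedBall.1 hw])
    have hyb : y ∈ ball y (δ / 2) := mem_ball_self (by linarith)
    let j : ball y (δ / 2) → f ⁻¹' U := fun z => ⟨z, hcb (hsub z z.2)⟩
    have hj : Continuous j := continuous_subtype_val.subtype_mk _
    have : PreconnectedSpace (ball y (δ / 2)) := isPreconnected_iff_preconnectedSpace.mp (hb y _)
    have hc : ∀ z : ball y (δ / 2), (H (j z)).2 = (H (j ⟨y, hyb⟩)).2 := fun z =>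
      (IsLocallyConstant.iff_continuous _).mpr
        (continuous_snd.comp (H.continuous.comp hj)) |>.apply_eq_of_preconnectedSpace _ _
    let i : closedBall (f y) (δ / 2) → Y := fun w =>
      H.symm (⟨w, hcb w.2⟩, (H (j ⟨y, hyb⟩)).2)
    have hi : Continuous i := continuous_subtype_val.comp (H.symm.continuous.comp
      ((continuous_subtype_val.subtype_mk _).prodMk continuous_const))
    have : CompactSpace (closedBall (f y) (δ / 2)) :=
      isCompact_iff_compactSpace.mp (isCompact_closedBall _ _)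
    refine ⟨range i, isCompact_range hi, fun z hz => ⟨⟨f z, hsub z hz⟩, ?_⟩⟩
    have h1 : H (j ⟨z, hz⟩) = (⟨f z, hcb (hsub z hz)⟩, (H (j ⟨y, hyb⟩)).2) :=
      Prod.ext (Subtype.ext (hH _)) (hc ⟨z, hz⟩)
    change (H.symm (⟨f z, hcb (hsub z hz)⟩, (H (j ⟨y, hyb⟩)).2) : Y) = z
    rw [← h1, Homeomorph.symm_apply_apply]
  obtain ⟨K, hK, hK'⟩ := key
  obtain ⟨a, -, ha⟩ := hK.isComplete (map u atTop) hu
    (le_principal_iff.mpr (mem_map.mpr (mem_of_superset (eventually_ge_atTop n₁)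
      fun m hm => hK' (hn₁ m hm _ (le_max_left _ _)))))
  exact ⟨a, ha⟩

/-- the monodromy of a simply connected covering is free -/
theorem monodromy_inj {X Y : Type} [TopologicalSpace X] [TopologicalSpace Y]
    [SimplyConnectedSpace Y] {f : Y → X} (hf : IsCoveringMap f) {x : X} (e : f ⁻¹' {x}) :
    Function.Injective fun γ : Path.Homotopic.Quotient x x => hf.monodromy γ e := by
  intro γ γ' h
  have key : ∀ (γ : Path.Homotopic.Quotient x x) (e' : f ⁻¹' {x}), hf.monodromy γ e = e' →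
      ∀ Γ : Path.Homotopic.Quotient e.1 e'.1, Γ.map ⟨f, hf.continuous⟩ = γ.cast e.2 e'.2 := by
    rintro γ _ rfl Γ
    rw [← hf.map_liftPathQuotient γ e, Subsingleton.elim Γ (hf.liftPathQuotient γ e)]
  have h1 := key γ _ h (hf.liftPathQuotient γ' e)
  have h2 := key γ' _ rfl (hf.liftPathQuotient γ' e)
  exact eq_of_heq (((Path.Homotopic.Quotient.cast_heq _ _).symm.trans
    (heq_of_eq (h1.symm.trans h2))).trans (Path.Homotopic.Quotient.cast_heq _ _))

variable {E : Type} [NormedAddCommGroup E] [NormedSpace ℂ E] [FiniteDimensional ℂ E]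
  {M : Type} [MetricSpace M] [ChartedSpace E M]
  [IsManifold 𝓘(ℂ, E) 1 M] [IsManifold 𝓘(ℝ, E) ∞ M]
  [RiemannianBundle (fun x : M => TangentSpace 𝓘(ℝ, E) x)]
  {N : Type} [MetricSpace N] [ChartedSpace E N]
  [IsManifold 𝓘(ℂ, E) 1 N] [IsManifold 𝓘(ℝ, E) ∞ N]
  [RiemannianBundle (fun x : N => TangentSpace 𝓘(ℝ, E) x)] {φ : N → M}

section Germ

variable {e : OpenPartialHomeomorph M E} {e' : OpenPartialHomeomorph N E} {z : E}
  (h : ∀ᶠ y in 𝓝 z, ∀ v w, chartMetric e' y v w = chartMetric e y v w)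
include h

theorem d1 (u v w : E) : fderiv ℝ (fun y => chartMetric e' y v w) z u =
    fderiv ℝ (fun y => chartMetric e y v w) z u := by
  rw [Filter.EventuallyEq.fderiv_eq (h.mono fun y hy => hy v w)]

theorem d2 (u c v w : E) :
    fderiv ℝ (fun y => fderiv ℝ (fun x => chartMetric e' x v w) y c) z u =
      fderiv ℝ (fun y => fderiv ℝ (fun x => chartMetric e x v w) y c) z u := by
  rw [Filter.EventuallyEq.fderiv_eq (h.eventually_nhds.mono fun y hy => d1 hy c v w)]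

theorem chris_of {Γ : E → E → E} (hΓ : IsChristoffel e z Γ) : IsChristoffel e' z Γ := by
  intro u v w
  rw [h.self_of_nhds, d1 h, d1 h, d1 h]
  exact hΓ u v w

theorem sect_eq (Γ : E → E → E) (a b : E) : sectNum e' z Γ a b = sectNum e z Γ a b := by
  simp only [sectNum, d2 h, h.self_of_nhds]

end Germ

/-- the differential on the model space -/
def dd (E : Type) [NormedAddCommGroup E] [NormedSpace ℂ E] {M N : Type} [TopologicalSpace M]
    [ChartedSpace E M] [TopologicalSpace N] [ChartedSpace E N] (φ : N → M) (y : N) : E →L[ℝ] E :=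
  mfderiv 𝓘(ℝ, E) 𝓘(ℝ, E) φ y

theorem exists_chart (hφ : IsRiemannianCovering E φ)
    (hC : IsLocalDiffeomorph 𝓘(ℂ, E) 𝓘(ℂ, E) 1 φ) {e' : OpenPartialHomeomorph N E}
    (he' : e' ∈ maximalAtlas 𝓘(ℂ, E) 1 N) {y : N} (hy : y ∈ e'.source) :
    ∃ e ∈ maximalAtlas 𝓘(ℂ, E) 1 M, φ y ∈ e.source ∧ e (φ y) = e' y ∧
      ∀ᶠ z in 𝓝 (e' y), ∀ v w, chartMetric e' z v w = chartMetric e z v w := by
  obtain ⟨Ψ, hm, hΨ⟩ := hC y
  set ψ := Ψ.toOpenPartialHomeomorph with hψ
  have hΨ' : EqOn φ ψ ψ.source := hΨ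
  have hm' : y ∈ ψ.source := hm
  set e := ψ.symm.trans e' with he
  have h1 : ψ.symm (φ y) = y := by rw [hΨ' hm', ψ.left_inv hm']
  have h2 : φ y ∈ e.source := ⟨by rw [hΨ' hm']; exact ψ.map_source hm', by
    change ψ.symm (φ y) ∈ e'.source
    rwa [h1]⟩
  have h3 : e (φ y) = e' y := by
    change e' (ψ.symm (φ y)) = e' y
    rw [h1]
  refine ⟨e, Vale.Agent.P253.R2.H922.mem_maximalAtlas_of_contMDiffOn ?_ ?_, h2, h3, ?_⟩
  · exact (contMDiffOn_of_mem_maximalAtlas he').comp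
      (Ψ.contMDiffOn_invFun.mono fun x hx => hx.1) fun x hx => hx.2
  · exact Ψ.contMDiffOn_toFun.comp
      ((contMDiffOn_symm_of_mem_maximalAtlas he').mono fun x hx => hx.1) fun x hx => hx.2
  · have h4 : e.target ∈ 𝓝 (e' y) := e.open_target.mem_nhds (h3 ▸ e.map_source h2)
    filter_upwards [h4] with z hz v w
    have h5 : e.symm =ᶠ[𝓝 z] φ ∘ e'.symm := by
      filter_upwards [e.open_target.mem_nhds hz] with u hu
      exact (hΨ' hu.2).symm
    have h6 : MDifferentiableAt 𝓘(ℝ, E) 𝓘(ℝ, E) e'.symm z :=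
      ((contMDiffOn_symm_of_mem_maximalAtlas (mem_maximalAtlas_real he')).contMDiffAt
        (e'.open_target.mem_nhds hz.1)).mdifferentiableAt (by simp)
    have h7 : dsymm e z = (dd E φ (e'.symm z)).comp (dsymm e' z) :=
      h5.mfderiv_eq.trans (mfderiv_comp z
        ((hφ.localDiffeo.contMDiff _).mdifferentiableAt (by simp)) h6)
    change innerAt (e'.symm z) (dsymm e' z v) (dsymm e' z w) =
      innerAt (e.symm z) (dsymm e z v) (dsymm e z w)
    rw [h7, h5.eq_of_nhds]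
    exact (hφ.isometric _ _ _).symm

theorem kahler_up (hφ : IsRiemannianCovering E φ)
    (hC : IsLocalDiffeomorph 𝓘(ℂ, E) 𝓘(ℂ, E) 1 φ) (hK : IsKahler E M) : IsKahler E N := by
  intro e' he' z hz
  obtain ⟨e, he, h1, h2, h3⟩ := exists_chart hφ hC he' (e'.map_target hz)
  rw [e'.right_inv hz] at h2 h3
  obtain ⟨h4, Γ, h5, h6⟩ := hK e he z (h2 ▸ e.map_source h1)
  exact ⟨fun v w => by rw [h3.self_of_nhds, h3.self_of_nhds, h4], Γ, chris_of h3 h5, h6⟩

theorem pos_up (hφ : IsRiemannianCovering E φ)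
    (hC : IsLocalDiffeomorph 𝓘(ℂ, E) 𝓘(ℂ, E) 1 φ) {y : N} (hp : PosBisectionalAt E (φ y)) :
    PosBisectionalAt E y := by
  intro e' he' hy
  obtain ⟨e, he, h1, h2, h3⟩ := exists_chart hφ hC he' hy
  obtain ⟨Γ, h5, h6⟩ := hp e he h1
  rw [h2] at h5 h6
  exact ⟨Γ, chris_of h3 h5, fun u v hu hv => by
    rw [sect_eq h3, sect_eq h3]; exact h6 u v hu hv⟩

theorem deck_holo (hC : IsLocalDiffeomorph 𝓘(ℂ, E) 𝓘(ℂ, E) 1 φ) {δ : N → N} (hδ : Continuous δ)
    (h : ∀ v, φ (δ v) = φ v) : MDifferentiable 𝓘(ℂ, E) 𝓘(ℂ, E) δ :=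
  (Vale.Agent.P300.H903.contMDiff_lift hC hδ
    (by rw [show φ ∘ δ = φ from funext h]; exact hC.contMDiff)).mdifferentiable one_ne_zero

theorem deck_isom (hφ : IsRiemannianCovering E φ) {δ : N → N} (hδ : Continuous δ)
    (h : ∀ v, φ (δ v) = φ v) (x : N) (v w : TangentSpace 𝓘(ℝ, E) x) :
    inner ℝ (mfderiv 𝓘(ℝ, E) 𝓘(ℝ, E) δ x v) (mfderiv 𝓘(ℝ, E) 𝓘(ℝ, E) δ x w) = inner ℝ v w := by
  have h0 : φ ∘ δ = φ := funext h
  have h1 : ContMDiff 𝓘(ℝ, E) 𝓘(ℝ, E) ∞ δ :=
    Vale.Agent.P300.H903.contMDiff_lift hφ.localDiffeo hδ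
      (by rw [h0]; exact hφ.localDiffeo.contMDiff)
  have h2 : dd E (φ ∘ δ) x = (dd E φ (δ x)).comp (dd E δ x) :=
    mfderiv_comp x ((hφ.localDiffeo.contMDiff _).mdifferentiableAt (by simp))
      ((h1 x).mdifferentiableAt (by simp))
  rw [h0] at h2
  rw [← hφ.isometric (δ x), ← hφ.isometric x]
  change innerAt (E := E) (φ (δ x)) (((dd E φ (δ x)).comp (dd E δ x)) v)
    (((dd E φ (δ x)).comp (dd E δ x)) w) = innerAt (E := E) (φ x) (dd E φ x v) (dd E φ x w)
  rw [← h2, h]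

end Vale.Agent.P253Z.Cov
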